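import Vale.Agent.P050.H546.GSpec
import Vale.Agent.P050.H843.Close

/-!
The closing of the two ladders, in the general form: the statement `GCloseStmt`.
-/

set_option linter.unusedSectionVars false

namespace Vale.Agent.P050.H843

open Finset Vale.Agent.P050.H148 Vale.Agent.P050.Cart Vale.Agent.P050.Join Vale.Agent.P050.M18
open Vale.Agent.P050.H546

variable {U : Type} [Fintype U]

section gen

theorem mar_self {Ω : Type} [Fintype Ω] (P : Ω → ℝ) : mar P (fun ω => ω) = P := by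
  funext a
  exact mar_id P a

end gen

section walk

variable [DecidableEq U] {Q : U × U → ℝ} (hE : Edge Q)

theorem EE_succ (j : ℕ) (x z : U) : EE Q (j + 1) (x, z) = ∑ c, EE Q j (x, c) * nb Q c z := by
  have e1 : zp (nb Q) (j + 1) x z = ∑ c, zp (nb Q) j x c * nb Q c z := rfl
  unfold EE
  rw [e1, Finset.mul_sum]
  exact Finset.sum_congr rfl fun c _ => by ring

include hE

theorem EE_nn (j : ℕ) (x : U × U) : 0 ≤ EE Q j x :=
  mul_nonneg (hE.mm_nn _) (zp_nonneg hE.nb_nn _ _ _)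

theorem EE_col (j : ℕ) (z : U) : ∑ x, EE Q j (x, z) = mm Q z := by
  induction j generalizing z with
  | zero =>
    have e1 : ∀ x, EE Q 0 (x, z) = if x = z then mm Q x else 0 := fun x => by
      have e2 : zp (nb Q) 0 x z = if x = z then 1 else 0 := rfl
      unfold EE
      simp only [e2]
      split_ifs <;> simp
    rw [Finset.sum_congr rfl fun x _ => e1 x]
    simp
  | succ j ih =>
    rw [Finset.sum_congr rfl fun x _ => EE_succ (Q := Q) j x z, Finset.sum_comm]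
    have e1 : ∀ c, ∑ x, EE Q j (x, c) * nb Q c z = Q (c, z) := fun c => by
      rw [← Finset.sum_mul, ih c, hE.mm_mul_nb]
    rw [Finset.sum_congr rfl fun c _ => e1 c]
    unfold mm
    exact Finset.sum_congr rfl fun c _ => hE.sym _ _

theorem EE_ne {j : ℕ} {x z : U} (h : EE Q j (x, z) ≠ 0) : mm Q z ≠ 0 := by
  intro h0
  have h1 := EE_col hE j z
  rw [h0] at h1
  exact h ((Finset.sum_eq_zero_iff_of_nonneg fun x _ => EE_nn hE j _).1 h1 x (mem_univ x))

theorem EE_row (j : ℕ) (x : U) : ∑ z, EE Q j (x, z) = mm Q x := by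
  induction j with
  | zero =>
    have e1 : ∀ z, EE Q 0 (x, z) = if x = z then mm Q x else 0 := fun z => by
      have e2 : zp (nb Q) 0 x z = if x = z then 1 else 0 := rfl
      unfold EE
      simp only [e2]
      split_ifs <;> simp
    rw [Finset.sum_congr rfl fun z _ => e1 z]
    simp
  | succ j ih =>
    rw [Finset.sum_congr rfl fun z _ => EE_succ (Q := Q) j x z, Finset.sum_comm, ← ih]
    refine Finset.sum_congr rfl fun c _ => ?_
    rw [← Finset.mul_sum]
    by_cases h : EE Q j (x, c) = 0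
    · rw [h, zero_mul]
    · rw [hE.nb_one (EE_ne hE h), mul_one]

theorem EE_first (j : ℕ) : ent (EE Q j) (fun x => x.1) = aQ Q := by
  have h1 : mar (EE Q j) (fun x => x.1) = mar Q (fun e => e.1) := by
    rw [hE.mar_fst_Q]
    funext x
    rw [mar_prod_fst, EE_row hE]
  have h2 := Edge.ent_fst hE
  unfold ent at h2 ⊢
  rw [h1, h2]

theorem EE_last (j : ℕ) : ent (EE Q j) (fun x => x.2) = aQ Q := by
  have h1 : mar (EE Q j) (fun x => x.2) = mar Q (fun e => e.1) := by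
    rw [hE.mar_fst_Q]
    funext x
    rw [mar_prod_snd, EE_col hE]
  have h2 := Edge.ent_fst hE
  unfold ent at h2 ⊢
  rw [h1, h2]

end walk

section main

variable {Ω : Type} [DecidableEq U] [Fintype Ω] {C : U × U → U × U → ℝ} {A : U → U → ℝ}
  {Q : U × U → ℝ} {P : Ω → ℝ} {R a b : Ω → U × U} {d e : Ω → U} {n L : ℕ}

/-- the weight -/
def gwt (C : U × U → U × U → ℝ) (A : U → U → ℝ) (n L : ℕ)
    (y : (U × U) × (U × U) × (U × U) × (U × U) × (U × U)) : ℝ :=
  zp C n y.1 y.2.2.2.1 * C y.2.2.2.1 y.2.1 *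
    (zp C (n + L) y.1 y.2.2.2.2 * C y.2.2.2.2 y.2.2.1) *
    (zp A (L - 1) y.2.2.1.2 y.2.1.1 * zp A (L - 1) y.2.2.1.1 y.2.1.2)

theorem sum_gwt : ∑ y, gwt C A n L y = nL C A n L := by
  unfold nL cj gwt
  rw [Fintype.sum_prod_type]
  refine Finset.sum_congr rfl fun R _ => ?_
  rw [Fintype.sum_prod_type]
  refine Finset.sum_congr rfl fun a' _ => ?_
  rw [Fintype.sum_prod_type]
  refine Finset.sum_congr rfl fun b' _ => ?_
  rw [Fintype.sum_prod_type]
  have e1 : zp C (n + 1) R a' = ∑ c, zp C n R c * C c a' := rfl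
  have e2 : zp C (n + L + 1) R b' = ∑ c, zp C (n + L) R c * C c b' := rfl
  rw [e1, e2, Finset.sum_mul_sum, Finset.sum_mul]
  refine Finset.sum_congr rfl fun c _ => ?_
  rw [Finset.sum_mul]

theorem gclose (hv : GValStmt) (hL : 2 ≤ L) (hE : Edge Q) (hC : Four C Q)
    (hA : ∀ x y, 0 ≤ A x y)
    (hA1 : ∀ x y, Q (x, y) ≠ 0 → A x y = 1) (B : G2 Q n L P R a b d e) :
    0 < nL C A n L ∧ (2 * n + L) * gQ Q + (2 * L + 6) * hQ Q + 4 * hh Q (L - 1) - 3 * hh Q L -
      (2 * L + 9) * aQ Q + hB Q (n + 1) - 2 * hB Q (n + L) ≤ Real.log (nL C A n L) := by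
  -- marginals of the base
  have ma : mar P (fun ω => a ω) = Q := by
    have h1 : mar P (fun ω => a ω) = mar (mar P (fun ω => (R ω, a ω))) (fun x => x.2) := by
      funext x
      rw [mar_mar]
    rw [h1, B.la]
    exact (PP_lab hE n).snd
  have mb : mar P (fun ω => b ω) = Q := by
    have h1 : mar P (fun ω => b ω) = mar (mar P (fun ω => (R ω, b ω))) (fun x => x.2) := by
      funext x
      rw [mar_mar]
    rw [h1, B.lb]
    exact (PP_lab hE (n + L)).snd
  have sa : ∀ ω, P ω ≠ 0 → Q (a ω) ≠ 0 := fun ω h => by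
    have := mar_ne_zero B.nn (fun ω => a ω) h
    rwa [ma] at this
  have sb : ∀ ω, P ω ≠ 0 → Q (b ω) ≠ 0 := fun ω h => by
    have := mar_ne_zero B.nn (fun ω => b ω) h
    rwa [mb] at this
  have ena : ent P (fun ω => (a ω).1) = aQ Q := by
    have h1 : ent P (fun ω => (a ω).1) = ent (mar P (fun ω => a ω)) (fun x => x.1) := by
      rw [ent_mar]
    rw [h1, ma, Edge.ent_fst hE]
  have enb : ent P (fun ω => (b ω).1) = aQ Q := by
    have h1 : ent P (fun ω => (b ω).1) = ent (mar P (fun ω => b ω)) (fun x => x.1) := by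
      rw [ent_mar]
    rw [h1, mb, Edge.ent_fst hE]
  have ene : ent P e = aQ Q := (ent_comp (B.lue.trans (mar_self _).symm) (fun y => y.2)).trans (EE_last hE _)
  have hend : ent P d = aQ Q := (ent_comp (B.ldv.trans (mar_self _).symm) (fun y => y.1)).trans (EE_first hE _)
  -- the copy of `u`
  set c1 : Ω → U × U × U := fun ω => ((b ω).1, d ω, e ω) with hc1
  set P1 := cop P c1 (fun ω => (b ω).2) with hP1
  have p0 : ∀ x, 0 ≤ P1 x := cop_nonneg B.nn _ _
  have p1 : ∑ x, P1 x = 1 := cop_total B.nn _ _ B.tot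
  -- the copy of `v`
  set c2' : Ω × U → U × U × U := fun x => ((a x.1).1, e x.1, d x.1) with hc2
  set P2 := cop P1 c2' (fun x => (a x.1).2) with hP2
  have q0 : ∀ x, 0 ≤ P2 x := cop_nonneg p0 _ _
  have q1 : ∑ x, P2 x = 1 := cop_total p0 _ _ p1
  have l1 : mar P1 (fun x => (c1 x.1, x.2)) = mar P (fun ω => (c1 ω, (b ω).2)) :=
    cop_law B.nn _ _
  have l2 : mar P2 (fun x => (c2' x.1, x.2)) = mar P1 (fun x => (c2' x, (a x.1).2)) :=
    cop_law p0 _ _
  have l2' : mar P1 (fun x => (c2' x, (a x.1).2)) =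
      mar P (fun ω => (((a ω).1, e ω, d ω), (a ω).2)) :=
    cop_fst B.nn _ _ (fun ω => (((a ω).1, e ω, d ω), (a ω).2))
  have l3 : mar P2 (fun x => (d x.1.1, x.2)) = EE Q (L - 1) := by
    rw [← B.ldv]
    exact mar_comp (l2.trans l2') (fun y => (y.1.2.2, y.2))
  have l4 : mar P2 (fun x => (x.1.2, e x.1.1)) = EE Q (L - 1) := by
    rw [← B.lue]
    have h1 : mar P2 (fun x => (x.1.2, e x.1.1)) = mar P1 (fun x => (x.2, e x.1)) :=
      cop_fst p0 _ _ (fun x => (x.2, e x.1))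
    rw [h1]
    exact mar_comp l1 (fun y => (y.2, y.1.2.2))
  have m2 : ∀ {γ : Type} (g : Ω → γ), mar P2 (fun x => g x.1.1) = mar P g := by
    intro γ g
    have h3 : mar P2 (fun x => g x.1.1) = mar P1 (fun x => g x.1) :=
      cop_fst p0 _ _ (fun x => g x.1)
    have h4 : mar P1 (fun x => g x.1) = mar P g := cop_fst B.nn _ _ g
    rw [h3, h4]
  -- the support
  have sP1 : ∀ x, P1 x ≠ 0 → P x.1 ≠ 0 ∧ Q ((b x.1).1, x.2) ≠ 0 ∧ Q (x.2, d x.1) ≠ 0 := by
    intro x hx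
    obtain ⟨h1, ω, h2, h3, h4⟩ := cop_ne_zero B.nn _ _ hx
    have h5 := sb ω h2
    have h6 := B.sud ω h2
    simp only [hc1, Prod.mk.injEq] at h3
    refine ⟨h1, ?_, ?_⟩
    · have h7 : b ω = ((b x.1).1, x.2) := Prod.ext h3.1 h4
      rwa [h7] at h5
    · rw [h4, h3.2.1] at h6
      exact h6
  have sP2 : ∀ x, P2 x ≠ 0 → P1 x.1 ≠ 0 ∧ Q ((a x.1.1).1, x.2) ≠ 0 ∧ Q (x.2, e x.1.1) ≠ 0 := by
    intro x hx
    obtain ⟨h1, ω, h2, h3, h4⟩ := cop_ne_zero p0 _ _ hx
    have h2' := (sP1 ω h2).1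
    have h5 := sa ω.1 h2'
    have h6 := B.sve ω.1 h2'
    simp only [hc2, Prod.mk.injEq] at h3
    refine ⟨h1, ?_, ?_⟩
    · have h7 : a ω.1 = ((a x.1.1).1, x.2) := Prod.ext h3.1 h4
      rwa [h7] at h5
    · rw [h4, h3.2.1] at h6
      exact h6
  obtain ⟨hv1, hv2⟩ := hv U A Q hE hA hA1 (L - 1)
  -- the weight on the support
  set f : (Ω × U) × U → (U × U) × (U × U) × (U × U) × (U × U) × (U × U) :=
    fun x => (R x.1.1, (x.2, e x.1.1), (x.1.2, d x.1.1), a x.1.1, b x.1.1) with hf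
  have hz : ∀ x, P2 x ≠ 0 → zp C n (R x.1.1) (a x.1.1) ≠ 0 ∧
      zp C (n + L) (R x.1.1) (b x.1.1) ≠ 0 ∧ zp A (L - 1) (d x.1.1) x.2 ≠ 0 ∧
      zp A (L - 1) x.1.2 (e x.1.1) ≠ 0 ∧
      gwt C A n L (f x) = zp C n (R x.1.1) (a x.1.1) * zp C (n + L) (R x.1.1) (b x.1.1) *
        (zp A (L - 1) (d x.1.1) x.2 * zp A (L - 1) x.1.2 (e x.1.1)) := by
    intro x hx
    obtain ⟨g1, g8, g9⟩ := sP2 x hx
    obtain ⟨g0, g10, g11⟩ := sP1 x.1 g1
    have h1 := mar_ne_zero B.nn (fun ω => (R ω, a ω)) g0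
    rw [B.la] at h1
    have h2 := mar_ne_zero B.nn (fun ω => (R ω, b ω)) g0
    rw [B.lb] at h2
    have h3 := (st_PP hE hC n).sup _ h1
    have h4 := (st_PP hE hC (n + L)).sup _ h2
    have h5 := mar_ne_zero q0 (fun x => (d x.1.1, x.2)) hx
    rw [l3] at h5
    have h6 := mar_ne_zero q0 (fun x => (x.1.2, e x.1.1)) hx
    rw [l4] at h6
    refine ⟨h3, h4, hv1 _ h5, hv1 _ h6, ?_⟩
    have k1 : C (a x.1.1) (x.2, e x.1.1) = 1 :=
      hC.c1 (a x.1.1).1 (a x.1.1).2 (e x.1.1) x.2 (sa _ g0) (B.sve _ g0) g8 g9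
    have k2 : C (b x.1.1) (x.1.2, d x.1.1) = 1 :=
      hC.c1 (b x.1.1).1 (b x.1.1).2 (d x.1.1) x.1.2 (sb _ g0) (B.sud _ g0) g10 g11
    unfold gwt
    simp only [hf]
    rw [k1, k2]
    ring
  have key := ent_log_sum q0 q1 f (gwt C A n L) (fun y => by
      unfold gwt
      exact mul_nonneg (mul_nonneg (mul_nonneg (zp_nonneg hC.c0 _ _ _) (hC.c0 _ _))
        (mul_nonneg (zp_nonneg hC.c0 _ _ _) (hC.c0 _ _)))
        (mul_nonneg (zp_nonneg hA _ _ _) (zp_nonneg hA _ _ _)))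
    (fun x hx => by
      obtain ⟨h1, h2, h3, h4, h5⟩ := hz x hx
      rw [h5]
      exact mul_ne_zero (mul_ne_zero h1 h2) (mul_ne_zero h3 h4))
  rw [sum_gwt] at key
  refine ⟨key.1, ?_⟩
  have key2 := key.2
  -- the mean of the logarithm
  have e1 : ∑ x, P2 x * Real.log (gwt C A n L (f x)) =
      ∑ x, PP Q n x * Real.log (zp C n x.1 x.2) +
        ∑ x, PP Q (n + L) x * Real.log (zp C (n + L) x.1 x.2) +
        (∑ x, EE Q (L - 1) x * Real.log (zp A (L - 1) x.1 x.2) +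
        ∑ x, EE Q (L - 1) x * Real.log (zp A (L - 1) x.1 x.2)) := by
    have e3 : ∀ x, P2 x * Real.log (gwt C A n L (f x)) =
        P2 x * Real.log (zp C n (R x.1.1) (a x.1.1)) +
        P2 x * Real.log (zp C (n + L) (R x.1.1) (b x.1.1)) +
        (P2 x * Real.log (zp A (L - 1) (d x.1.1) x.2) +
        P2 x * Real.log (zp A (L - 1) x.1.2 (e x.1.1))) := by
      intro x
      by_cases hx : P2 x = 0
      · rw [hx]; ring
      obtain ⟨h1, h2, h3, h4, h5⟩ := hz x hx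
      rw [h5, Real.log_mul (mul_ne_zero h1 h2) (mul_ne_zero h3 h4), Real.log_mul h1 h2,
        Real.log_mul h3 h4]
      ring
    rw [Finset.sum_congr rfl fun x _ => e3 x, Finset.sum_add_distrib, Finset.sum_add_distrib,
      Finset.sum_add_distrib]
    have e4 := sum_mar P2 (fun x => (R x.1.1, a x.1.1))
      (fun y => Real.log (zp C n y.1 y.2))
    have e5 := sum_mar P2 (fun x => (R x.1.1, b x.1.1))
      (fun y => Real.log (zp C (n + L) y.1 y.2))
    have e6 := sum_mar P2 (fun x => (d x.1.1, x.2))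
      (fun y => Real.log (zp A (L - 1) y.1 y.2))
    have e7 := sum_mar P2 (fun x => (x.1.2, e x.1.1))
      (fun y => Real.log (zp A (L - 1) y.1 y.2))
    rw [m2 (fun ω => (R ω, a ω)), B.la] at e4
    rw [m2 (fun ω => (R ω, b ω)), B.lb] at e5
    rw [l3] at e6
    rw [l4] at e7
    rw [← e4, ← e5, ← e6, ← e7]
  have v1 := (st_PP hE hC n).va
  have v2 := (st_PP hE hC (n + L)).va
  unfold Vale.Agent.P050.M18.val at v1 v2
  have v3 : ent (PP Q n) (fun x => (x.1, x.2)) = hP Q n := rfl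
  have v4 : ent (PP Q (n + L)) (fun x => (x.1, x.2)) = hP Q (n + L) := rfl
  rw [v3] at v1
  rw [v4] at v2
  -- the entropies
  have f1 := cop_ent B.nn c1 (fun ω => (b ω).2) (fun ω => (R ω, a ω, b ω, d ω, e ω))
    (fun z => (z.2.2.1.1, z.2.2.2.1, z.2.2.2.2)) (fun _ => rfl)
  rw [← hP1] at f1
  have f2 := cop_ent p0 c2' (fun x => (a x.1).2)
    (fun x => ((R x.1, a x.1, b x.1, d x.1, e x.1), x.2))
    (fun z => (z.1.2.1.1, z.1.2.2.2.2, z.1.2.2.2.1)) (fun _ => rfl)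
  rw [← hP2] at f2
  have f5 : ent P2 f = ent P2 (fun x => (((R x.1.1, a x.1.1, b x.1.1,
      d x.1.1, e x.1.1), x.1.2), x.2)) :=
    ent_same _ fun x y => by
      simp only [hf, Prod.mk.injEq]
      tauto
  have f6 : ent P c1 ≤ 3 * aQ Q := three_le B.nn B.tot enb hend ene
  have f7 : ent P1 c2' ≤ 3 * aQ Q := by
    have h1 : ent P1 c2' = ent P (fun ω => ((a ω).1, e ω, d ω)) :=
      cop_ent_fst B.nn _ _ (fun ω => ((a ω).1, e ω, d ω))
    rw [h1]
    exact three_le B.nn B.tot ena ene hend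
  have f8 : ent P1 (fun x => (c2' x, (a x.1).2)) =
      ent P (fun ω => (((a ω).1, e ω, d ω), (a ω).2)) :=
    cop_ent_fst B.nn _ _ (fun ω => (((a ω).1, e ω, d ω), (a ω).2))
  have b0 := B.ent
  have b1 := B.e1
  have b2 := B.e2
  rw [f8] at f2
  rw [e1, f5] at key2
  have hc : ((L - 1 : ℕ) : ℝ) = L - 1 := by
    rw [Nat.cast_sub (by omega)]
    norm_num
  rw [hc] at hv2
  push_cast at v2
  linarith

theorem gcloseStmt (hv : GValStmt) : GCloseStmt := by
  intro U Ω _ _ _ C A Q P R a b d e n L hL hE hC hA hA1 B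
  exact gclose hv hL hE hC hA hA1 B

end main

end Vale.Agent.P050.H843
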